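import Vale.Agent.P039.Sk.Basic
import Mathlib.LinearAlgebra.FiniteDimensional.Lemmas
import Mathlib.LinearAlgebra.Dimension.Constructions
import Mathlib.LinearAlgebra.Pi
import Mathlib.Data.Real.Basic
import Mathlib.Tactic.Ring
import Mathlib.Tactic.Linarith
import Mathlib.Tactic.Abel

/-! The rank inequality: linearly independent face boundaries in a connected subgraph. -/

namespace Vale.Agent.P039.H183

open Vale.Agent.P039.Sk Finset

variable {B W V : Type} {X : Web B W}

/-- difference of a face function across the edges -/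
def bd (L : Lab X V) (A : V → ℝ) (p : B × Fin 3) : ℝ :=
  A (L.c (p.2 + 1) p.1) - A (L.c (p.2 + 2) p.1)

theorem bd_sum_black (L : Lab X V) (A : V → ℝ) (b : B) : ∑ i, bd L A (b, i) = 0 := by
  have h1 : (1 : Fin 3) + 1 = 2 := by decide
  have h2 : (1 : Fin 3) + 2 = 0 := by decide
  have h3 : (2 : Fin 3) + 1 = 0 := by decide
  have h4 : (2 : Fin 3) + 2 = 1 := by decide
  rw [Fin.sum_univ_three]
  simp only [bd, zero_add, h1, h2, h3, h4]
  ring

theorem cw_eq (L : Lab X V) (j : Fin 3) (w : W) :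
    L.c j ((X.e (j + 1)).symm w) = L.c j ((X.e (j + 2)).symm w) :=
  L.step j _ _ (by simp)

theorem bd_sum_white (L : Lab X V) (A : V → ℝ) (w : W) :
    ∑ i, bd L A ((X.e i).symm w, i) = 0 := by
  have h1 : (1 : Fin 3) + 1 = 2 := by decide
  have h2 : (1 : Fin 3) + 2 = 0 := by decide
  have h3 : (2 : Fin 3) + 1 = 0 := by decide
  have h4 : (2 : Fin 3) + 2 = 1 := by decide
  rw [Fin.sum_univ_three]
  simp only [bd, zero_add, h1, h2, h3, h4]
  have e0 := cw_eq L 0 w
  have e1 := cw_eq L 1 w
  have e2 := cw_eq L 2 w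
  simp only [zero_add, h1, h2, h3, h4] at e0 e1 e2
  rw [e0, ← e1, e2]
  ring

theorem bd_orth [Fintype B] [Fintype W] (L : Lab X V) (A : V → ℝ) (s : B → ℝ) (t : W → ℝ) :
    ∑ p : B × Fin 3, bd L A p * (s p.1 - t (X.e p.2 p.1)) = 0 := by
  have h1 : ∑ p : B × Fin 3, bd L A p * s p.1 = 0 := by
    rw [Fintype.sum_prod_type]
    apply Finset.sum_eq_zero
    intro b _
    have h := bd_sum_black L A b
    simp only []
    rw [← Finset.sum_mul, h, zero_mul]
  have h2 : ∑ p : B × Fin 3, bd L A p * t (X.e p.2 p.1) = 0 := by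
    rw [Fintype.sum_prod_type_right]
    have h3 : ∀ i : Fin 3, ∑ b : B, bd L A (b, i) * t (X.e i b) =
        ∑ w : W, bd L A ((X.e i).symm w, i) * t w := by
      intro i
      refine Fintype.sum_equiv (X.e i) _ _ ?_
      intro b
      simp
    simp only [h3]
    rw [Finset.sum_comm]
    apply Finset.sum_eq_zero
    intro w _
    rw [← Finset.sum_mul, bd_sum_white, zero_mul]
  simp only [mul_sub, Finset.sum_sub_distrib, h1, h2, sub_zero]

/-- extension by zero -/
noncomputable def ext0 {α : Type} (S : Finset α) : ({x // x ∈ S} → ℝ) →ₗ[ℝ] (α → ℝ) where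
  toFun f := by classical exact fun x => if h : x ∈ S then f ⟨x, h⟩ else 0
  map_add' f g := by
    funext x
    simp only [Pi.add_apply]
    split_ifs <;> simp
  map_smul' r f := by
    funext x
    simp only [Pi.smul_apply, RingHom.id_apply]
    split_ifs <;> simp

theorem ext0_mem {α : Type} {S : Finset α} (f : {x // x ∈ S} → ℝ) {x : α} (h : x ∈ S) :
    ext0 S f x = f ⟨x, h⟩ := by
  simp only [ext0, LinearMap.coe_mk, AddHom.coe_mk]
  rw [dif_pos h]

theorem ext0_not_mem {α : Type} {S : Finset α} (f : {x // x ∈ S} → ℝ) {x : α} (h : x ∉ S) :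
    ext0 S f x = 0 := by
  simp only [ext0, LinearMap.coe_mk, AddHom.coe_mk]
  rw [dif_neg h]

/-- the combined map of the rank inequality -/
noncomputable def rk (L : Lab X V) (SB : Finset B) (SW : Finset W) (ES : Finset (B × Fin 3))
    (K : Finset V) :
    (({v // v ∈ K} → ℝ) × ({b // b ∈ SB} → ℝ) × ({w // w ∈ SW} → ℝ)) →ₗ[ℝ]
      ({p // p ∈ ES} → ℝ) where
  toFun x := fun p => bd L (ext0 K x.1) p.1 + (ext0 SB x.2.1 p.1.1 - ext0 SW x.2.2 (X.e p.1.2 p.1.1))
  map_add' x y := by
    funext p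
    simp only [bd, Prod.fst_add, Prod.snd_add, map_add, Pi.add_apply]
    ring
  map_smul' r x := by
    funext p
    simp only [bd, Prod.smul_fst, Prod.smul_snd, map_smul, Pi.smul_apply, RingHom.id_apply,
      smul_eq_mul]
    ring

/-- If `ES` is a set of edges between `SB` and `SW` which connects `SB ∪ SW`, and all edges of the
faces in `K` (not all faces) lie in `ES`, then `|K| + |SB| + |SW| ≤ |ES| + 1`. -/
theorem rank_ineq [Fintype B] [Fintype W] (L : Lab X V)
    (SB : Finset B) (SW : Finset W) (ES : Finset (B × Fin 3)) (K : Finset V)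
    (hconn : ∀ (s : B → ℝ) (t : W → ℝ), (∀ p ∈ ES, s p.1 = t (X.e p.2 p.1)) →
      ∃ r, (∀ b ∈ SB, s b = r) ∧ ∀ w ∈ SW, t w = r)
    (hK : ∀ p : B × Fin 3, p ∉ ES → L.c (p.2 + 1) p.1 ∉ K ∧ L.c (p.2 + 2) p.1 ∉ K)
    (hdual : ∀ A : V → ℝ, (∀ (b : B) (i : Fin 3), A (L.c (i + 1) b) = A (L.c (i + 2) b)) →
      ∀ v v', A v = A v')
    (hne : ∃ v, v ∉ K) :
    K.card + SB.card + SW.card ≤ ES.card + 1 := by
  classical
  have hker : LinearMap.ker (rk L SB SW ES K) ≤
      Submodule.span ℝ {((0 : {v // v ∈ K} → ℝ), (fun _ => 1 : {b // b ∈ SB} → ℝ),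
        (fun _ => 1 : {w // w ∈ SW} → ℝ))} := by
    rintro ⟨A, s, t⟩ hx
    rw [LinearMap.mem_ker] at hx
    have hx' : ∀ p ∈ ES, bd L (ext0 K A) p + (ext0 SB s p.1 - ext0 SW t (X.e p.2 p.1)) = 0 :=
      fun p hp => congrFun hx ⟨p, hp⟩
    have hz : ∀ p, p ∉ ES → bd L (ext0 K A) p = 0 := by
      intro p hp
      obtain ⟨h1, h2⟩ := hK p hp
      simp only [bd, ext0_not_mem _ h1, ext0_not_mem _ h2, sub_zero]
    have hsq : ∑ p : B × Fin 3, bd L (ext0 K A) p * bd L (ext0 K A) p = 0 := by
      have h1 := bd_orth L (ext0 K A) (ext0 SB s) (ext0 SW t)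
      rw [← h1, ← sub_eq_zero, ← Finset.sum_sub_distrib]
      have h2 : ∀ p : B × Fin 3, bd L (ext0 K A) p * bd L (ext0 K A) p -
          bd L (ext0 K A) p * (ext0 SB s p.1 - ext0 SW t (X.e p.2 p.1)) =
          2 * (bd L (ext0 K A) p * bd L (ext0 K A) p) := by
        intro p
        by_cases hp : p ∈ ES
        · have := hx' p hp
          have h3 : ext0 SB s p.1 - ext0 SW t (X.e p.2 p.1) = - bd L (ext0 K A) p := by linarith
          rw [h3]; ring
        · rw [hz p hp]; ring
      have h4 : ∑ p : B × Fin 3, bd L (ext0 K A) p *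
          (bd L (ext0 K A) p + (ext0 SB s p.1 - ext0 SW t (X.e p.2 p.1))) = 0 := by
        apply Finset.sum_eq_zero
        intro p _
        by_cases hp : p ∈ ES
        · rw [hx' p hp, mul_zero]
        · rw [hz p hp, zero_mul]
      simp only [mul_add, Finset.sum_add_distrib, h1, add_zero] at h4
      rw [Finset.sum_congr rfl (fun p _ => h2 p), ← Finset.mul_sum, h4, mul_zero]
    have hbd : ∀ p, bd L (ext0 K A) p = 0 := by
      intro p
      have h1 := (Finset.sum_eq_zero_iff_of_nonneg (fun p _ => mul_self_nonneg _)).1 hsq p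
        (Finset.mem_univ _)
      exact mul_self_eq_zero.1 h1
    have hA0 : ∀ v, ext0 K A v = 0 := by
      obtain ⟨v0, hv0⟩ := hne
      intro v
      rw [hdual (ext0 K A) (fun b i => sub_eq_zero.1 (hbd (b, i))) v v0, ext0_not_mem _ hv0]
    have hA : A = 0 := by
      funext v
      have := hA0 v.1
      rw [ext0_mem A v.2] at this
      exact this
    obtain ⟨r, hr1, hr2⟩ := hconn (ext0 SB s) (ext0 SW t) (by
      intro p hp
      have := hx' p hp
      rw [hbd p, zero_add] at this
      exact sub_eq_zero.1 this)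
    rw [Submodule.mem_span_singleton]
    refine ⟨r, ?_⟩
    rw [Prod.smul_mk, Prod.smul_mk, smul_zero, hA]
    refine Prod.ext rfl (Prod.ext ?_ ?_)
    · funext b
      have := hr1 b.1 b.2
      rw [ext0_mem s b.2] at this
      simp only [Pi.smul_apply, smul_eq_mul, mul_one]
      exact this.symm
    · funext w
      have := hr2 w.1 w.2
      rw [ext0_mem t w.2] at this
      simp only [Pi.smul_apply, smul_eq_mul, mul_one]
      exact this.symm
  have hk1 : Module.finrank ℝ (LinearMap.ker (rk L SB SW ES K)) ≤ 1 := by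
    refine (Submodule.finrank_mono hker).trans ?_
    have := finrank_span_le_card (R := ℝ)
      ({((0 : {v // v ∈ K} → ℝ), (fun _ => 1 : {b // b ∈ SB} → ℝ),
        (fun _ => 1 : {w // w ∈ SW} → ℝ))} : Set _)
    simpa using this
  have hrn := LinearMap.finrank_range_add_finrank_ker (rk L SB SW ES K)
  have hr := Submodule.finrank_le (LinearMap.range (rk L SB SW ES K))
  rw [Module.finrank_prod, Module.finrank_prod, Module.finrank_fintype_fun_eq_card,
    Module.finrank_fintype_fun_eq_card, Module.finrank_fintype_fun_eq_card,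
    Fintype.card_coe, Fintype.card_coe, Fintype.card_coe] at hrn
  rw [Module.finrank_fintype_fun_eq_card, Fintype.card_coe] at hr
  omega

end Vale.Agent.P039.H183
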